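import Mathlib
import Vale.Agent.Lib.P243.CapMain
import Vale.Agent.Lib.P243.R3.Defs

/-!
# P243, `r_3 > 1/3`, module M3: bottom and top boundary points

In the model space `ℝ × (ℝ × ℝ)` (first coordinate = height) let `K` be compact convex with a
vertical chord from `(z0, o)` to `(z0 + l, o)`.  If `(ζ, ξ)` is the lowest point of `K` over `ξ`
and some point of the segment from the lower chord end to `(ζ, ξ)` is interior to `K`, then the
chord of `K` over the corresponding base point is strictly longer than the convex combination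
of the chord lengths (and symmetrically for highest points and the upper chord end).
-/

namespace Vale.Agent.Lib.P243.R3

open MeasureTheory Set Vale.Agent.Lib.P243

/-- The fibres of a convex set are convex. -/
theorem M3b_fib_convex {K : Set (ℝ × (ℝ × ℝ))} (hc : Convex ℝ K) (y : ℝ × ℝ) :
    Convex ℝ (Cap.fib K y) := by
  intro z1 hz1 z2 hz2 a b ha hb hab
  have h := hc hz1 hz2 ha hb hab
  have e : a • ((z1, y) : ℝ × (ℝ × ℝ)) + b • ((z2, y) : ℝ × (ℝ × ℝ)) = (a • z1 + b • z2, y) := by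
    have hy : a • y + b • y = y := by rw [← add_smul, hab, one_smul]
    exact Prod.ext rfl hy
  rw [e] at h
  exact h

/-- Two points of `K` over the same base point bound the chord length from below. -/
theorem M3b_len_ge {K : Set (ℝ × (ℝ × ℝ))} (hK : IsCompact K) (hc : Convex ℝ K)
    {a c : ℝ} {y : ℝ × ℝ} (ha : (a, y) ∈ K) (hcK : (c, y) ∈ K) :
    c - a ≤ Cap.len K y := by
  by_cases hac : a ≤ c
  · have hsub : Icc a c ⊆ Cap.fib K y := (M3b_fib_convex hc y).ordConnected.out ha hcK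
    have h1 : volume (Icc a c) ≤ volume (Cap.fib K y) := measure_mono hsub
    rw [Real.volume_Icc] at h1
    have h2 := ENNReal.toReal_mono (Cap.fib_fin hK y) h1
    rw [ENNReal.toReal_ofReal (sub_nonneg.2 hac)] at h2
    exact h2
  · have := Cap.len_nonneg (K := K) y
    linarith

/-- A fibre inside an interval bounds the chord length from above. -/
theorem M3b_len_le {K : Set (ℝ × (ℝ × ℝ))} {a c : ℝ} {y : ℝ × ℝ} (hac : a ≤ c)
    (hsub : Cap.fib K y ⊆ Icc a c) : Cap.len K y ≤ c - a := by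
  have h1 : volume (Cap.fib K y) ≤ volume (Icc a c) := measure_mono hsub
  have hfin : volume (Icc a c) ≠ ⊤ := by
    rw [Real.volume_Icc]
    exact ENNReal.ofReal_ne_top
  have h2 := ENNReal.toReal_mono hfin h1
  rw [Real.volume_Icc, ENNReal.toReal_ofReal (sub_nonneg.2 hac)] at h2
  exact h2

theorem M3b_bottom {K : Set (ℝ × (ℝ × ℝ))} (hK : IsCompact K) (hc : Convex ℝ K)
    {z0 l : ℝ} {o : ℝ × ℝ} (hl : 0 < l) (h0 : (z0, o) ∈ K) (h1 : (z0 + l, o) ∈ K)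
    {ζ : ℝ} {ξ : ℝ × ℝ} (hx : (ζ, ξ) ∈ K) (hbot : ∀ ζ' : ℝ, ζ' < ζ → (ζ', ξ) ∉ K)
    {s : ℝ} (hs0 : 0 ≤ s) (hs1 : s ≤ 1)
    (hw : (1 - s) • ((z0, o) : ℝ × (ℝ × ℝ)) + s • ((ζ, ξ) : ℝ × (ℝ × ℝ)) ∈ interior K) :
    (1 - s) * l + s * Cap.len K ξ < Cap.len K (o + s • (ξ - o)) := by
  have _hl := hl
  have _h0 := h0
  have h1s : 0 ≤ 1 - s := sub_nonneg.2 hs1
  have hFc : IsCompact (Cap.fib K ξ) := Cap.fib_compact hK ξ
  have hFn : (Cap.fib K ξ).Nonempty := ⟨ζ, hx⟩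
  have hbF : sSup (Cap.fib K ξ) ∈ Cap.fib K ξ := hFc.sSup_mem hFn
  have hζb : ζ ≤ sSup (Cap.fib K ξ) := le_csSup hFc.bddAbove hx
  have hFsub : Cap.fib K ξ ⊆ Icc ζ (sSup (Cap.fib K ξ)) := by
    intro z hz
    refine ⟨?_, le_csSup hFc.bddAbove hz⟩
    by_contra hlt
    exact hbot z (not_le.1 hlt) hz
  have hlen : Cap.len K ξ ≤ sSup (Cap.fib K ξ) - ζ := M3b_len_le hζb hFsub
  have hy : (1 - s) • o + s • ξ = o + s • (ξ - o) := by
    rw [smul_sub, sub_smul, one_smul]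
    abel
  obtain ⟨ε, hε, hball⟩ := Metric.mem_nhds_iff.1 (mem_interior_iff_mem_nhds.1 hw)
  have hwe : (1 - s) • ((z0, o) : ℝ × (ℝ × ℝ)) + s • ((ζ, ξ) : ℝ × (ℝ × ℝ))
      = ((1 - s) * z0 + s * ζ, o + s • (ξ - o)) := by
    rw [← hy]
    rfl
  have hlow : ((1 - s) * z0 + s * ζ - ε / 2, o + s • (ξ - o)) ∈ K := by
    apply hball
    rw [hwe, Metric.mem_ball, Prod.dist_eq, dist_self, Real.dist_eq]
    have e : (1 - s) * z0 + s * ζ - ε / 2 - ((1 - s) * z0 + s * ζ) = -(ε / 2) := by ring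
    rw [e, abs_neg, abs_of_pos (half_pos hε)]
    exact max_lt (half_lt_self hε) hε
  have hT : ((1 - s) * (z0 + l) + s * sSup (Cap.fib K ξ), o + s • (ξ - o)) ∈ K := by
    have h := hc h1 hbF h1s hs0 (by ring)
    rw [← hy]
    exact h
  have h3 := M3b_len_ge hK hc hlow hT
  have h4 := mul_le_mul_of_nonneg_left hlen hs0
  nlinarith

theorem M3b_top {K : Set (ℝ × (ℝ × ℝ))} (hK : IsCompact K) (hc : Convex ℝ K)
    {z0 l : ℝ} {o : ℝ × ℝ} (hl : 0 < l) (h0 : (z0, o) ∈ K) (h1 : (z0 + l, o) ∈ K)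
    {ζ : ℝ} {ξ : ℝ × ℝ} (hx : (ζ, ξ) ∈ K) (htop : ∀ ζ' : ℝ, ζ < ζ' → (ζ', ξ) ∉ K)
    {s : ℝ} (hs0 : 0 ≤ s) (hs1 : s ≤ 1)
    (hw : (1 - s) • ((z0 + l, o) : ℝ × (ℝ × ℝ)) + s • ((ζ, ξ) : ℝ × (ℝ × ℝ)) ∈ interior K) :
    (1 - s) * l + s * Cap.len K ξ < Cap.len K (o + s • (ξ - o)) := by
  have _hl := hl
  have _h1 := h1
  have h1s : 0 ≤ 1 - s := sub_nonneg.2 hs1
  have hFc : IsCompact (Cap.fib K ξ) := Cap.fib_compact hK ξ
  have hFn : (Cap.fib K ξ).Nonempty := ⟨ζ, hx⟩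
  have haF : sInf (Cap.fib K ξ) ∈ Cap.fib K ξ := hFc.sInf_mem hFn
  have haζ : sInf (Cap.fib K ξ) ≤ ζ := csInf_le hFc.bddBelow hx
  have hFsub : Cap.fib K ξ ⊆ Icc (sInf (Cap.fib K ξ)) ζ := by
    intro z hz
    refine ⟨csInf_le hFc.bddBelow hz, ?_⟩
    by_contra hlt
    exact htop z (not_le.1 hlt) hz
  have hlen : Cap.len K ξ ≤ ζ - sInf (Cap.fib K ξ) := M3b_len_le haζ hFsub
  have hy : (1 - s) • o + s • ξ = o + s • (ξ - o) := by
    rw [smul_sub, sub_smul, one_smul]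
    abel
  obtain ⟨ε, hε, hball⟩ := Metric.mem_nhds_iff.1 (mem_interior_iff_mem_nhds.1 hw)
  have hwe : (1 - s) • ((z0 + l, o) : ℝ × (ℝ × ℝ)) + s • ((ζ, ξ) : ℝ × (ℝ × ℝ))
      = ((1 - s) * (z0 + l) + s * ζ, o + s • (ξ - o)) := by
    rw [← hy]
    rfl
  have hhigh : ((1 - s) * (z0 + l) + s * ζ + ε / 2, o + s • (ξ - o)) ∈ K := by
    apply hball
    rw [hwe, Metric.mem_ball, Prod.dist_eq, dist_self, Real.dist_eq]
    have e : (1 - s) * (z0 + l) + s * ζ + ε / 2 - ((1 - s) * (z0 + l) + s * ζ) = ε / 2 := by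
      ring
    rw [e, abs_of_pos (half_pos hε)]
    exact max_lt (half_lt_self hε) hε
  have hB : ((1 - s) * z0 + s * sInf (Cap.fib K ξ), o + s • (ξ - o)) ∈ K := by
    have h := hc h0 haF h1s hs0 (by ring)
    rw [← hy]
    exact h
  have h3 := M3b_len_ge hK hc hB hhigh
  have h4 := mul_le_mul_of_nonneg_left hlen hs0
  nlinarith

end Vale.Agent.Lib.P243.R3
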